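import Vale.Agent.P251EJ.DefsS

/-!
# P251EJ, row CELL: the cells of the powers of the sphere
-/

open Set Topology OnePoint

noncomputable section

namespace Vale.Agent.P251EJ27

open Vale.Agent.P251EJ

variable {n M : ℕ}

/-- the set of all coordinates of all points -/
def co (y : Fin M → Sp n) : Set ℝ := {r | ∃ (i : Fin M) (v : Fin n → ℝ) (l : Fin n), y i = v ∧ v l = r}

theorem co_sub (y : Fin M → Sp n) :
    co y ⊆ range fun z : Fin M × Fin n => (y z.1).elim 0 fun v => v z.2 := by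
  rintro r ⟨i, v, l, hv, rfl⟩
  exact ⟨(i, l), by simp only [hv]; rfl⟩

theorem co_fin (y : Fin M → Sp n) : (co y).Finite := (finite_range _).subset (co_sub y)

theorem co_card (y : Fin M → Sp n) : (co y).ncard < M * n + 1 := by
  refine Nat.lt_succ_of_le ((ncard_le_ncard (co_sub y) (finite_range _)).trans ?_)
  rw [← image_univ]
  refine (ncard_image_le finite_univ).trans ?_
  simp [ncard_univ]

theorem co_perm (y : Fin M → Sp n) (σ : Equiv.Perm (Fin M)) : co (y ∘ σ) = co y := by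
  ext r
  constructor
  · rintro ⟨i, v, l, hv, h⟩
    exact ⟨σ i, v, l, hv, h⟩
  · rintro ⟨i, v, l, hv, h⟩
    exact ⟨σ.symm i, v, l, by simpa using hv, h⟩

/-- the cells -/
def PP (n M d : ℕ) : Type :=
  {ρ : Fin M → Option (Fin n → Fin d) // ∀ a, ∃ i r l, ρ i = Option.some r ∧ r l = a}

/-- the characteristic maps -/
def cc (χ : (Fin n → ℝ) → Sp n) {d : ℕ} (x : PP n M d) (t : Fin d → ℝ) : Fin M → Sp n :=
  fun i => (x.1 i).elim ∞ fun r => χ (t ∘ r)

variable {h : ℝ → ℝ} {χ : (Fin n → ℝ) → Sp n}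

theorem co_cc_sub
    (h1 : ∀ t, (∀ i, t i ∈ Ioo (0 : ℝ) 1) → χ t = ((fun i => h (t i) : Fin n → ℝ) : Sp n))
    (h2 : ∀ t, ¬ (∀ i, t i ∈ Ioo (0 : ℝ) 1) → χ t = ∞) {d : ℕ} (x : PP n M d) (t : Fin d → ℝ) :
    co (cc χ x t) ⊆ (h ∘ t) '' {a | t a ∈ Ioo (0 : ℝ) 1} := by
  rintro _ ⟨i, v, l, hv, rfl⟩
  unfold cc at hv
  cases hx : x.1 i with
  | none => rw [hx] at hv; exact absurd hv (infty_ne_coe v)
  | some r =>
    rw [hx] at hv
    by_cases hr : ∀ l, (t ∘ r) l ∈ Ioo (0 : ℝ) 1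
    · have e : χ (t ∘ r) = v := hv
      rw [h1 _ hr, coe_eq_coe] at e
      exact ⟨r l, hr l, congrFun e l⟩
    · have e : χ (t ∘ r) = v := hv
      rw [h2 _ hr] at e
      exact absurd e (infty_ne_coe v)

theorem co_cc
    (h1 : ∀ t, (∀ i, t i ∈ Ioo (0 : ℝ) 1) → χ t = ((fun i => h (t i) : Fin n → ℝ) : Sp n))
    (h2 : ∀ t, ¬ (∀ i, t i ∈ Ioo (0 : ℝ) 1) → χ t = ∞) {d : ℕ} (x : PP n M d) (t : Fin d → ℝ)
    (ht : ∀ a, t a ∈ Ioo (0 : ℝ) 1) : co (cc χ x t) = range (h ∘ t) := by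
  refine Subset.antisymm ((co_cc_sub h1 h2 x t).trans (image_subset_range _ _)) ?_
  rintro _ ⟨a, rfl⟩
  obtain ⟨i, r, l, hr, rfl⟩ := x.2 a
  refine ⟨i, fun l => h ((t ∘ r) l), l, ?_, rfl⟩
  unfold cc
  rw [hr]
  exact h1 _ fun l => ht _

theorem cc_inj (hb : InjOn h (Ioo 0 1))
    (h1 : ∀ t, (∀ i, t i ∈ Ioo (0 : ℝ) 1) → χ t = ((fun i => h (t i) : Fin n → ℝ) : Sp n))
    (h2 : ∀ t, ¬ (∀ i, t i ∈ Ioo (0 : ℝ) 1) → χ t = ∞) {d : ℕ} (x y : PP n M d)
    (s t : Fin d → ℝ) (hs : StrictMono s) (hs' : ∀ a, s a ∈ Ioo (0 : ℝ) 1) (ht : StrictMono t)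
    (ht' : ∀ a, t a ∈ Ioo (0 : ℝ) 1) (e : cc χ x s = cc χ y t) : x = y ∧ s = t := by
  have e1 : range (h ∘ s) = range (h ∘ t) := by
    rw [← co_cc h1 h2 x s hs', ← co_cc h1 h2 y t ht', e]
  have e2 : range s = range t := by
    apply Subset.antisymm
    · rintro _ ⟨a, rfl⟩
      obtain ⟨b, hb'⟩ : (h ∘ s) a ∈ range (h ∘ t) := e1 ▸ mem_range_self a
      exact ⟨b, hb (ht' b) (hs' a) hb'⟩
    · rintro _ ⟨a, rfl⟩
      obtain ⟨b, hb'⟩ : (h ∘ t) a ∈ range (h ∘ s) := e1 ▸ mem_range_self a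
      exact ⟨b, hb (hs' b) (ht' a) hb'⟩
  have e3 : s = t := (hs.range_inj ht).1 e2
  subst e3
  refine ⟨Subtype.ext (funext fun i => ?_), rfl⟩
  have e4 := congrFun e i
  unfold cc at e4
  cases hx : x.1 i with
  | none =>
    cases hy : y.1 i with
    | none => rfl
    | some r' =>
      rw [hx, hy] at e4
      have e5 : ∞ = χ (s ∘ r') := e4
      rw [h1 (s ∘ r') fun l => hs' _] at e5
      exact absurd e5 (infty_ne_coe _)
  | some r =>
    cases hy : y.1 i with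
    | none =>
      rw [hx, hy] at e4
      have e5 : χ (s ∘ r) = ∞ := e4
      rw [h1 (s ∘ r) fun l => hs' _] at e5
      exact absurd e5 (coe_ne_infty _)
    | some r' =>
      rw [hx, hy] at e4
      have e5 : χ (s ∘ r) = χ (s ∘ r') := e4
      rw [h1 (s ∘ r) fun l => hs' _, h1 (s ∘ r') fun l => hs' _, coe_eq_coe] at e5
      congr 1
      funext l
      exact hs.injective (hb (hs' _) (hs' _) (congrFun e5 l))

theorem cc_bd
    (h1 : ∀ t, (∀ i, t i ∈ Ioo (0 : ℝ) 1) → χ t = ((fun i => h (t i) : Fin n → ℝ) : Sp n))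
    (h2 : ∀ t, ¬ (∀ i, t i ∈ Ioo (0 : ℝ) 1) → χ t = ∞) {d : ℕ} (x : PP n M d) (t : Fin d → ℝ)
    (hm : Monotone t) (hn : ¬ (StrictMono t ∧ ∀ a, t a ∈ Ioo (0 : ℝ) 1)) :
    (co (cc χ x t)).ncard < d := by
  by_contra hc
  have a1 := ncard_le_ncard (co_cc_sub h1 h2 x t) ((toFinite _).image _)
  have a2 : ((h ∘ t) '' {a | t a ∈ Ioo (0 : ℝ) 1}).ncard ≤ {a | t a ∈ Ioo (0 : ℝ) 1}.ncard :=
    ncard_image_le (toFinite _)
  have a3 : (univ : Set (Fin d)).ncard = d := by simp [ncard_univ]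
  have a4 : {a | t a ∈ Ioo (0 : ℝ) 1} = univ :=
    eq_of_subset_of_ncard_le (subset_univ _) (by omega) finite_univ
  rw [a4] at a1 a2
  have a5 : InjOn (h ∘ t) univ := injOn_of_ncard_image_eq (by omega) finite_univ
  refine hn ⟨hm.strictMono_of_injective (Function.Injective.of_comp (injOn_univ.1 a5)), fun a => ?_⟩
  exact (a4.symm ▸ mem_univ a : a ∈ {a | t a ∈ Ioo (0 : ℝ) 1})

theorem cc_cov (hb : BijOn h (Ioo 0 1) univ)
    (h1 : ∀ t, (∀ i, t i ∈ Ioo (0 : ℝ) 1) → χ t = ((fun i => h (t i) : Fin n → ℝ) : Sp n))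
    {d : ℕ} (y : Fin M → Sp n) (hy : (co y).ncard = d) :
    ∃ (x : PP n M d) (s : Fin d → ℝ), (StrictMono s ∧ ∀ a, s a ∈ Ioo (0 : ℝ) 1) ∧ cc χ x s = y := by
  classical
  let S : Set ℝ := {t | t ∈ Ioo (0 : ℝ) 1 ∧ h t ∈ co y}
  have hi : InjOn h S := hb.injOn.mono fun t ht => ht.1
  have him : h '' S = co y := by
    apply Subset.antisymm
    · rintro _ ⟨t, ht, rfl⟩
      exact ht.2
    · intro r hr
      obtain ⟨t, ht, rfl⟩ := hb.surjOn (mem_univ r)
      exact ⟨t, ⟨ht, hr⟩, rfl⟩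
  have hS : S.Finite := Finite.of_finite_image (him ▸ co_fin y) hi
  have hc : hS.toFinset.card = d := by
    rw [← ncard_eq_toFinset_card S hS, ← hi.ncard_image, him, hy]
  let s : Fin d → ℝ := hS.toFinset.orderEmbOfFin hc
  have hr : range s = S := by
    rw [Finset.range_orderEmbOfFin, Finite.coe_toFinset]
  have hs : ∀ a, s a ∈ S := fun a => hr ▸ mem_range_self a
  have ex : ∀ r ∈ co y, ∃ a, h (s a) = r := by
    intro r hr'
    obtain ⟨t, ht, rfl⟩ : r ∈ h '' S := him ▸ hr'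
    obtain ⟨a, rfl⟩ : t ∈ range s := hr ▸ ht
    exact ⟨a, rfl⟩
  have ex2 : ∀ i, ∃ o : Option (Fin n → Fin d), (o.elim ∞ fun r => χ (s ∘ r)) = y i ∧
      ∀ v : Fin n → ℝ, y i = v → ∃ r, o = Option.some r ∧ ∀ l, h (s (r l)) = v l := by
    intro i
    induction hi' : y i using OnePoint.rec with
    | infty => exact ⟨none, rfl, fun v hv => absurd hv (infty_ne_coe v)⟩
    | coe v =>
      choose r hr' using fun l => ex (v l) ⟨i, v, l, hi', rfl⟩
      refine ⟨Option.some r, ?_, fun w hw => ⟨r, rfl, fun l => ?_⟩⟩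
      · refine (h1 (s ∘ r) fun l => (hs _).1).trans ?_
        rw [coe_eq_coe]
        exact funext hr'
      · rw [coe_eq_coe] at hw
        rw [← hw]
        exact hr' l
  choose ρ hρ hρ' using ex2
  have sm : StrictMono s := (hS.toFinset.orderEmbOfFin hc).strictMono
  refine ⟨⟨ρ, fun a => ?_⟩, s, ⟨sm, fun a => (hs a).1⟩, funext hρ⟩
  obtain ⟨i, v, l, hv, e⟩ := (hs a).2
  obtain ⟨r, hr1, hr2⟩ := hρ' i v hv
  exact ⟨i, r, l, hr1, sm.injective (hi (hs _) (hs _) ((hr2 l).trans e))⟩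

theorem cellS : CellS := by
  intro hB hC n M Z _ q hq hq'
  obtain ⟨h, χ, hb, hχ, h1, h2⟩ := hC n
  classical
  refine ⟨{ N := M * n + 1
            P := PP n M
            fin := fun d => by unfold PP; infer_instance
            sk := fun d => {y | (co y).ncard < d}
            sk_zero := by ext y; simp
            sk_top := eq_univ_of_forall co_card
            mono := fun d y hy => Nat.lt_succ_of_lt hy
            c := fun d => cc χ
            cont := fun d x => ?_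
            bd := fun d x t ht => ?_
            inj := fun d x y s hs t ht e => ?_
            cov := fun d => ?_
            act := fun σ => ⟨fun y => y ∘ σ, by fun_prop⟩
            act_mul := fun g g' y => rfl
            act_sk := fun d g y => ?_
            pact := fun d g x => ⟨x.1 ∘ g, fun a => ?_⟩
            c_act := fun d g x s => rfl
            q := q
            q_surj := hq
            q_eq := hq' }, rfl, fun σ y => rfl⟩
  · refine continuousOn_pi.2 fun i => ?_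
    unfold cc
    cases x.1 i with
    | none => exact continuousOn_const
    | some r =>
      exact hχ.comp (f := fun t : Fin d → ℝ => t ∘ r) (by fun_prop) fun t ht l => ht.2 (r l)
  · have t1 : t ∈ ordS d := (hB d).2.1.isClosed.frontier_subset ht
    have t2 := ht.2
    rw [(hB d).2.2.2] at t2
    exact cc_bd h1 h2 x t t1.1 t2
  · rw [(hB d).2.2.2] at hs ht
    exact cc_inj hb.injOn h1 h2 x y s t hs.1 hs.2 ht.1 ht.2 e
  · rw [(hB d).2.2.2]
    ext y
    simp only [mem_sdiff, mem_ofPred_eq, mem_iUnion, mem_image]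
    constructor
    · rintro ⟨a1, a2⟩
      exact cc_cov hb h1 y (by omega)
    · rintro ⟨x, s, hs, rfl⟩
      have : (co (cc χ x s)).ncard = d := by
        rw [co_cc h1 h2 x s hs.2, ← image_univ, InjOn.ncard_image]
        · simp [ncard_univ]
        · exact fun a _ b _ e => hs.1.injective (hb.injOn (hs.2 a) (hs.2 b) e)
      omega
  · exact Iff.of_eq (congrArg (fun S : Set ℝ => S.ncard < d) (co_perm y g))
  · obtain ⟨i, r, l, e1, e2⟩ := x.2 a
    exact ⟨g.symm i, r, l, by simpa using e1, e2⟩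

end Vale.Agent.P251EJ27
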